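import Vale.Agent.P181.SZR2.Defs

set_option autoImplicit false

/-!
# P181, SZ, R2a: the row operators kill `FF g`
-/

open MvPolynomial

namespace Vale.Agent.P181.SZR2a

open Vale.Agent.P181.T4 (HW rowOp rowOp_apply rowOp_leibniz rowOp_C rowOp_var)
open Vale.Agent.P181.SZR2 (pos Zh dex FF FF_apply)
open Vale.Agent.P181.SZ (PK)

variable {m b l : ℕ}

/-- Row operators commute with a substitution as soon as they do so on the variables. -/
lemma rowOp_aeval {n k : ℕ} {σ τ : Type} [Fintype σ] [Fintype τ] {s i : Fin n} {s' i' : Fin k}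
    (φ : Fin n × σ → MvPolynomial (Fin k × τ) ℂ)
    (h : ∀ p, rowOp s' i' (φ p) = aeval φ (rowOp s i (X p : MvPolynomial (Fin n × σ) ℂ)))
    (g : MvPolynomial (Fin n × σ) ℂ) :
    rowOp s' i' (aeval φ g) = aeval φ (rowOp s i g) := by
  induction g using MvPolynomial.induction_on with
  | C c =>
    rw [rowOp_C, map_zero, aeval_C]
    exact rowOp_C _ _ _
  | add f g hf hg => rw [map_add, map_add, map_add, map_add, hf, hg]
  | mul_X f p hf =>
    rw [map_mul, aeval_X, rowOp_leibniz, rowOp_leibniz, map_add, map_mul, map_mul, hf, h p,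
      aeval_X]

/-- A row operator kills a substitution as soon as it kills the images of the variables. -/
lemma rowOp_aeval_zero {n k : ℕ} {σ τ : Type} [Fintype τ] {s' i' : Fin k}
    (φ : Fin n × σ → MvPolynomial (Fin k × τ) ℂ) (h : ∀ p, rowOp s' i' (φ p) = 0)
    (g : MvPolynomial (Fin n × σ) ℂ) : rowOp s' i' (aeval φ g) = 0 := by
  induction g using MvPolynomial.induction_on with
  | C c =>
    rw [aeval_C]
    exact rowOp_C _ _ _
  | add f g hf hg => rw [map_add, map_add, hf, hg, add_zero]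
  | mul_X f p hf =>
    rw [map_mul, aeval_X, rowOp_leibniz, hf, h p, zero_mul, mul_zero, add_zero]

lemma rowOp_X_zero (s : Fin (m + 1)) (i : Fin m) (c : Fin b) :
    rowOp s i.succ (X (0, c) : MvPolynomial (Fin (m + 1) × Fin b) ℂ) = 0 := by
  rw [rowOp_var, if_neg (Fin.succ_ne_zero i).symm]

lemma rowOp_X_succ (s : Fin (m + 1)) (i k : Fin m) (c : Fin b) :
    rowOp s i.succ (X (k.succ, c) : MvPolynomial (Fin (m + 1) × Fin b) ℂ) =
      if k = i then X (s, c) else 0 := by
  rw [rowOp_var]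
  simp only [Fin.succ_inj]

lemma rowOp_Zh (s : Fin (m + 1)) (i : Fin m) (h : 3 * l ≤ b) (p : Fin m × Fin l) :
    rowOp s i.succ (Zh m h p) = if p.1 = i then
      X (s, pos h p.2 0) * X (0, pos h p.2 1) * X (0, pos h p.2 2) +
      X (0, pos h p.2 0) * X (s, pos h p.2 1) * X (0, pos h p.2 2) -
      C 2 * (X (0, pos h p.2 0) * X (0, pos h p.2 1) * X (s, pos h p.2 2)) else 0 := by
  rw [Zh, map_sub, map_add]
  simp only [rowOp_leibniz, rowOp_C, rowOp_X_zero, rowOp_X_succ]
  by_cases hp : p.1 = i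
  · simp only [if_pos hp]
    ring
  · simp only [if_neg hp]
    ring

lemma rowOp_succ_aeval_Zh (s i : Fin m) (h : 3 * l ≤ b) (g : MvPolynomial (Fin m × Fin l) ℂ) :
    rowOp s.succ i.succ (aeval (Zh m h) g) = aeval (Zh m h) (rowOp s i g) := by
  refine rowOp_aeval _ (fun p => ?_) g
  rw [rowOp_Zh, rowOp_var]
  by_cases hp : p.1 = i
  · rw [if_pos hp, if_pos hp, aeval_X, Zh]
  · rw [if_neg hp, if_neg hp, map_zero]

lemma rowOp_zero_aeval_Zh (i : Fin m) (h : 3 * l ≤ b) (g : MvPolynomial (Fin m × Fin l) ℂ) :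
    rowOp 0 i.succ (aeval (Zh m h) g) = 0 := by
  refine rowOp_aeval_zero _ (fun p => ?_) g
  rw [rowOp_Zh]
  by_cases hp : p.1 = i
  · rw [if_pos hp]
    have : (C 2 : MvPolynomial (Fin (m + 1) × Fin b) ℂ) = 2 := by
      rw [map_ofNat]
    rw [this]
    ring
  · rw [if_neg hp]

lemma rowOp_prod_X_zero (s : Fin (m + 1)) (i : Fin m) (e : Fin b → ℕ) (t : Finset (Fin b)) :
    rowOp s i.succ (∏ c ∈ t, X (0, c) ^ e c : MvPolynomial (Fin (m + 1) × Fin b) ℂ) = 0 := by
  classical
  have hpow : ∀ (c : Fin b) (k : ℕ),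
      rowOp s i.succ (X (0, c) ^ k : MvPolynomial (Fin (m + 1) × Fin b) ℂ) = 0 := by
    intro c k
    induction k with
    | zero =>
      rw [pow_zero, ← C_1]
      exact rowOp_C _ _ _
    | succ k ih => rw [pow_succ, rowOp_leibniz, ih, rowOp_X_zero, zero_mul, mul_zero, add_zero]
  induction t using Finset.induction_on with
  | empty =>
    rw [Finset.prod_empty, ← C_1]
    exact rowOp_C _ _ _
  | insert c t hc ih =>
    rw [Finset.prod_insert hc, rowOp_leibniz, ih, hpow, zero_mul, mul_zero, add_zero]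

/-- **(R2a), the half of the row operators.** -/
theorem rowOp_FF (a : ℕ) (h : 3 * l ≤ b) (d : Fin l → ℕ) {mu : Fin m → ℕ}
    {g : MvPolynomial (Fin m × Fin l) ℂ} (hg : g ∈ HW m (Fin l) mu) (s i : Fin (m + 1))
    (hsi : s < i) : rowOp s i (FF a m h d g) = 0 := by
  obtain ⟨i, rfl⟩ := Fin.exists_succ_eq.2 (Fin.pos_iff_ne_zero.1 ((Fin.zero_le s).trans_lt hsi))
  rw [FF_apply, rowOp_leibniz, rowOp_prod_X_zero, zero_mul, zero_add]
  revert hsi
  refine Fin.cases ?_ (fun s => ?_) s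
  · intro _
    rw [rowOp_zero_aeval_Zh, mul_zero]
  · intro hsi
    rw [rowOp_succ_aeval_Zh, hg.2 s i (Fin.succ_lt_succ_iff.1 hsi), map_zero, mul_zero]

end Vale.Agent.P181.SZR2a
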