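import Vale.Agent.P181.SZR2a.Main
import Vale.Agent.P181.SZR1b.Defs

set_option autoImplicit false

/-!
# P181, SZ, R2a: `LowerA`
-/

namespace Vale.Agent.P181.SZR2a

open Vale.Agent.P181.SZ

/-- **(R2a)** -/
theorem lowerA : LowerA := fun _ _ _ _ h =>
  finrank_le_plethMult h _ (fun _ hf => hf.1) (fun _ hf => hf.2.1) (fun _ hf => hf.2.2.1)
    (fun _ hf => hf.2.2.2)

end Vale.Agent.P181.SZR2a
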