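import Vale.Agent.P181.H583.HWDef

set_option autoImplicit false

/-!
# P181, SZ, R2a: homogenization

A polynomial in the entries of an `m × b` matrix, of degree at most `a` in each column, becomes a
polynomial in the entries of an `(m + 1) × b` matrix of degree exactly `a` in each column.
-/

open MvPolynomial

namespace Vale.Agent.P181.SZR2a

open Vale.Agent.P181.T4 (HW rowOp rowOp_apply)

variable {m b : ℕ}

/-- The column degrees of a monomial. -/
def cd (v : Fin m × Fin b →₀ ℕ) (j : Fin b) : ℕ := ∑ i, v (i, j)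

/-- The exponent of the homogenization. -/
noncomputable def phi (a : ℕ) (v : Fin m × Fin b →₀ ℕ) : Fin (m + 1) × Fin b →₀ ℕ :=
  Finsupp.equivFunOnFinite.symm
    (fun p => Fin.cases (motive := fun _ => ℕ) (a - cd v p.2) (fun i => v (i, p.2)) p.1)

lemma phi_zero (a : ℕ) (v : Fin m × Fin b →₀ ℕ) (j : Fin b) : phi a v (0, j) = a - cd v j := rfl

lemma phi_succ (a : ℕ) (v : Fin m × Fin b →₀ ℕ) (i : Fin m) (j : Fin b) :
    phi a v (i.succ, j) = v (i, j) := rfl

lemma phi_inj (a : ℕ) : Function.Injective (phi (m := m) (b := b) a) := by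
  intro u v h
  ext ⟨i, j⟩
  rw [← phi_succ a u i j, h, phi_succ]

/-- The homogenization. -/
noncomputable def hom (a : ℕ) :
    MvPolynomial (Fin m × Fin b) ℂ →ₗ[ℂ] MvPolynomial (Fin (m + 1) × Fin b) ℂ :=
  (basisMonomials (Fin m × Fin b) ℂ).constr ℂ (fun v => monomial (phi a v) (1 : ℂ))

lemma hom_monomial (a : ℕ) (v : Fin m × Fin b →₀ ℕ) (c : ℂ) :
    hom a (monomial v c) = monomial (phi a v) c := by
  have h1 : (monomial v c : MvPolynomial (Fin m × Fin b) ℂ) =
      c • basisMonomials (Fin m × Fin b) ℂ v := by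
    rw [coe_basisMonomials, smul_monomial, smul_eq_mul, mul_one]
  rw [h1, map_smul, hom, Module.Basis.constr_basis, smul_monomial, smul_eq_mul, mul_one]

lemma coeff_hom (a : ℕ) (f : MvPolynomial (Fin m × Fin b) ℂ) (v : Fin m × Fin b →₀ ℕ) :
    coeff (phi a v) (hom a f) = coeff v f := by
  classical
  induction f using MvPolynomial.induction_on' with
  | monomial u c =>
    rw [hom_monomial, coeff_monomial, coeff_monomial]
    by_cases h : u = v
    · rw [if_pos h, if_pos (congrArg (phi a) h)]
    · rw [if_neg h, if_neg (fun h' => h (phi_inj a h'))]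
  | add f g hf hg => rw [map_add, coeff_add, coeff_add, hf, hg]

lemma hom_injective (a : ℕ) : Function.Injective (hom (m := m) (b := b) a) := by
  intro f g h
  apply MvPolynomial.ext
  intro v
  rw [← coeff_hom a f v, h, coeff_hom]

lemma hom_eq_sum (a : ℕ) (f : MvPolynomial (Fin m × Fin b) ℂ) :
    hom a f = ∑ v ∈ f.support, monomial (phi a v) (coeff v f) := by
  conv_lhs => rw [f.as_sum]
  rw [map_sum]
  exact Finset.sum_congr rfl fun v _ => hom_monomial a v _

lemma exists_of_coeff_hom (a : ℕ) (f : MvPolynomial (Fin m × Fin b) ℂ)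
    (w : Fin (m + 1) × Fin b →₀ ℕ) (hw : coeff w (hom a f) ≠ 0) :
    ∃ v, w = phi a v ∧ coeff v f ≠ 0 := by
  classical
  rw [hom_eq_sum, coeff_sum] at hw
  obtain ⟨v, hv, h⟩ := Finset.exists_ne_zero_of_sum_ne_zero hw
  rw [coeff_monomial] at h
  by_cases h' : phi a v = w
  · exact ⟨v, h'.symm, mem_support_iff.1 hv⟩
  · rw [if_neg h'] at h
    exact absurd rfl h

/-! ### The row operators -/

lemma rowOp_monomial {n : ℕ} {σ : Type} [Fintype σ] [DecidableEq σ] (s i : Fin n)
    (v : Fin n × σ →₀ ℕ) (c : ℂ) : rowOp s i (monomial v c) =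
      ∑ j, monomial (Finsupp.single (s, j) 1 + (v - Finsupp.single (i, j) 1))
        (c * (v (i, j) : ℂ)) := by
  rw [rowOp_apply]
  refine Finset.sum_congr rfl fun j _ => ?_
  rw [pderiv_monomial, X, monomial_mul, one_mul]

lemma cd_add (u v : Fin m × Fin b →₀ ℕ) (j : Fin b) : cd (u + v) j = cd u j + cd v j := by
  simp only [cd, Finsupp.add_apply, Finset.sum_add_distrib]

lemma cd_single (i : Fin m) (j k : Fin b) :
    cd (Finsupp.single (i, j) 1) k = if j = k then 1 else 0 := by
  classical
  rw [cd]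
  by_cases h : j = k
  · subst h
    rw [if_pos rfl, Finset.sum_eq_single i]
    · rw [Finsupp.single_eq_same]
    · intro l _ hl
      rw [Finsupp.single_apply, if_neg (fun h => hl (congrArg Prod.fst h).symm)]
    · intro h
      exact absurd (Finset.mem_univ _) h
  · rw [if_neg h]
    refine Finset.sum_eq_zero fun l _ => ?_
    rw [Finsupp.single_apply, if_neg (fun h' => h (congrArg Prod.snd h'))]

lemma cd_sub {v : Fin m × Fin b →₀ ℕ} {i : Fin m} {j : Fin b} (h : v (i, j) ≠ 0) (k : Fin b) :
    cd (v - Finsupp.single (i, j) 1) k + (if j = k then 1 else 0) = cd v k := by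
  rw [← cd_single i j k, ← cd_add]
  congr 1
  refine tsub_add_cancel_of_le ?_
  rw [Finsupp.single_le_iff]
  omega

lemma phi_move {a : ℕ} {v : Fin m × Fin b →₀ ℕ} {s i : Fin m} {j : Fin b} (h : v (i, j) ≠ 0) :
    phi a (Finsupp.single (s, j) 1 + (v - Finsupp.single (i, j) 1)) =
      Finsupp.single (s.succ, j) 1 + (phi a v - Finsupp.single (i.succ, j) 1) := by
  classical
  ext ⟨p, k⟩
  refine Fin.cases ?_ (fun p => ?_) p
  · rw [phi_zero, cd_add, cd_single, Finsupp.add_apply, Finsupp.tsub_apply, phi_zero,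
      Finsupp.single_apply, Finsupp.single_apply,
      if_neg (fun h' => Fin.succ_ne_zero _ (congrArg Prod.fst h')),
      if_neg (fun h' => Fin.succ_ne_zero _ (congrArg Prod.fst h')), zero_add, tsub_zero,
      ← cd_sub h k, add_comm]
  · rw [phi_succ, Finsupp.add_apply, Finsupp.tsub_apply, Finsupp.add_apply, Finsupp.tsub_apply,
      phi_succ, Finsupp.single_apply, Finsupp.single_apply, Finsupp.single_apply,
      Finsupp.single_apply]
    simp only [Prod.mk.injEq, Fin.succ_inj]

lemma phi_move_zero {a : ℕ} {v : Fin m × Fin b →₀ ℕ} {i : Fin m} {j : Fin b}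
    (h : v (i, j) ≠ 0) (hv : cd v j ≤ a) :
    phi a (v - Finsupp.single (i, j) 1) =
      Finsupp.single (0, j) 1 + (phi a v - Finsupp.single (i.succ, j) 1) := by
  classical
  ext ⟨p, k⟩
  refine Fin.cases ?_ (fun p => ?_) p
  · rw [phi_zero, Finsupp.add_apply, Finsupp.tsub_apply, phi_zero,
      Finsupp.single_apply, Finsupp.single_apply,
      if_neg (c := (i.succ, j) = ((0 : Fin (m + 1)), k))
        (fun h' => Fin.succ_ne_zero _ (congrArg Prod.fst h')), tsub_zero]
    have h1 := cd_sub h k
    by_cases hk : j = k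
    · subst hk
      rw [if_pos rfl] at h1 ⊢
      omega
    · rw [if_neg hk] at h1
      rw [if_neg (fun h' => hk (congrArg Prod.snd h'))]
      omega
  · rw [phi_succ, Finsupp.add_apply, Finsupp.tsub_apply, Finsupp.tsub_apply,
      phi_succ, Finsupp.single_apply, Finsupp.single_apply, Finsupp.single_apply,
      if_neg (c := (0, j) = (p.succ, k))
        (fun h' => Fin.succ_ne_zero _ (congrArg Prod.fst h').symm), zero_add]
    simp only [Prod.mk.injEq, Fin.succ_inj]

lemma hom_rowOp (a : ℕ) (s i : Fin m) (f : MvPolynomial (Fin m × Fin b) ℂ) :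
    rowOp s.succ i.succ (hom a f) = hom a (rowOp s i f) := by
  classical
  induction f using MvPolynomial.induction_on' with
  | monomial u c =>
    rw [hom_monomial, rowOp_monomial, rowOp_monomial, map_sum]
    refine Finset.sum_congr rfl fun j _ => ?_
    rw [hom_monomial, phi_succ]
    by_cases h : u (i, j) = 0
    · rw [h, Nat.cast_zero, mul_zero, monomial_zero, monomial_zero]
    · rw [phi_move h]
  | add f g hf hg => rw [map_add, map_add, map_add, map_add, hf, hg]

lemma hom_rowOp_zero (a : ℕ) (i : Fin m) (f : MvPolynomial (Fin m × Fin b) ℂ)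
    (hf : ∀ v, coeff v f ≠ 0 → ∀ j, cd v j ≤ a) :
    rowOp 0 i.succ (hom a f) = hom a (∑ j, pderiv (i, j) f) := by
  classical
  have h1 : ∀ v ∈ f.support, rowOp 0 i.succ (hom a (monomial v (coeff v f))) =
      hom a (∑ j, pderiv (i, j) (monomial v (coeff v f))) := by
    intro v hv
    rw [hom_monomial, rowOp_monomial, map_sum]
    refine Finset.sum_congr rfl fun j _ => ?_
    rw [pderiv_monomial, hom_monomial, phi_succ]
    by_cases h : v (i, j) = 0
    · rw [h, Nat.cast_zero, mul_zero, monomial_zero, monomial_zero]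
    · rw [phi_move_zero h (hf v (mem_support_iff.1 hv) j)]
  have h2 : f = ∑ v ∈ f.support, monomial v (coeff v f) := f.as_sum
  have h3 : rowOp 0 i.succ (hom a f) =
      ∑ v ∈ f.support, rowOp 0 i.succ (hom a (monomial v (coeff v f))) := by
    conv_lhs => rw [h2]
    rw [map_sum, map_sum]
  have h4 : hom a (∑ j, pderiv (i, j) f) =
      ∑ v ∈ f.support, hom a (∑ j, pderiv (i, j) (monomial v (coeff v f))) := by
    conv_lhs => rw [h2]
    rw [← map_sum, Finset.sum_comm]
    congr 1
    refine Finset.sum_congr rfl fun j _ => ?_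
    rw [map_sum]
  rw [h3, h4]
  exact Finset.sum_congr rfl h1

/-! ### Permutations of the columns -/

lemma hom_rename (a : ℕ) (e : Equiv.Perm (Fin b)) (f : MvPolynomial (Fin m × Fin b) ℂ) :
    hom a (rename (fun p : Fin m × Fin b => (p.1, e p.2)) f) =
      rename (fun p : Fin (m + 1) × Fin b => (p.1, e p.2)) (hom a f) := by
  classical
  induction f using MvPolynomial.induction_on' with
  | monomial u c =>
    rw [rename_monomial, hom_monomial, hom_monomial, rename_monomial]
    have hE : ∀ (n : ℕ) (v : Fin n × Fin b →₀ ℕ) (p : Fin n × Fin b),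
        Finsupp.mapDomain (fun p : Fin n × Fin b => (p.1, e p.2)) v p = v (p.1, e.symm p.2) := by
      intro n v p
      have : (fun p : Fin n × Fin b => (p.1, e p.2)) = ⇑(Equiv.prodCongr (Equiv.refl _) e) := rfl
      rw [this, ← Finsupp.equivMapDomain_eq_mapDomain, Finsupp.equivMapDomain_apply]
      rfl
    have hF : phi a (Finsupp.mapDomain (fun p : Fin m × Fin b => (p.1, e p.2)) u) =
        Finsupp.mapDomain (fun p : Fin (m + 1) × Fin b => (p.1, e p.2)) (phi a u) := by
      ext ⟨p, k⟩
      rw [hE]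
      refine Fin.cases ?_ (fun p => ?_) p
      · rw [phi_zero, phi_zero]
        congr 1
        refine Finset.sum_congr rfl fun i _ => ?_
        rw [hE]
      · rw [phi_succ, phi_succ, hE]
    rw [hF]
  | add f g hf hg => rw [map_add, map_add, map_add, map_add, hf, hg]

/-! ### Highest weight polynomials -/

lemma cd_hom {a : ℕ} {f : MvPolynomial (Fin m × Fin b) ℂ}
    (hf : ∀ v, coeff v f ≠ 0 → ∀ j, cd v j ≤ a) (w : Fin (m + 1) × Fin b →₀ ℕ)
    (hw : coeff w (hom a f) ≠ 0) (j : Fin b) : ∑ i, w (i, j) = a := by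
  obtain ⟨v, rfl, hv⟩ := exists_of_coeff_hom a f w hw
  rw [Fin.sum_univ_succ, phi_zero]
  have h1 := hf v hv j
  have h2 : ∑ i : Fin m, phi a v (i.succ, j) = cd v j := rfl
  rw [h2]
  omega

lemma hom_mem_HW {a : ℕ} {lam : Fin (m + 1) → ℕ} (h : ∑ i, lam i = a * b)
    {f : MvPolynomial (Fin m × Fin b) ℂ} (hf : f ∈ HW m (Fin b) (fun i => lam i.succ))
    (hc : ∀ v, coeff v f ≠ 0 → ∀ j, cd v j ≤ a) (hd : ∀ i, ∑ j, pderiv (i, j) f = 0) :
    hom a f ∈ HW (m + 1) (Fin b) lam := by
  refine ⟨fun w hw i => ?_, fun s i hsi => ?_⟩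
  · obtain ⟨v, rfl, hv⟩ := exists_of_coeff_hom a f w hw
    refine Fin.cases ?_ (fun i => ?_) i
    · have h1 : ∑ j, phi a v (0, j) + ∑ j, cd v j = a * b := by
        rw [← Finset.sum_add_distrib]
        have : ∀ j ∈ (Finset.univ : Finset (Fin b)), phi a v (0, j) + cd v j = a := by
          intro j _
          rw [phi_zero]
          have := hc v hv j
          omega
        rw [Finset.sum_congr rfl this, Finset.sum_const, Finset.card_univ, Fintype.card_fin,
          smul_eq_mul, mul_comm]
      have h2 : ∑ j, cd v j = ∑ i : Fin m, lam i.succ := by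
        simp only [cd]
        rw [Finset.sum_comm]
        exact Finset.sum_congr rfl fun i _ => hf.1 v hv i
      rw [Fin.sum_univ_succ] at h
      omega
    · exact hf.1 v hv i
  · obtain ⟨i, rfl⟩ := Fin.exists_succ_eq.2 (Fin.pos_iff_ne_zero.1 ((Fin.zero_le s).trans_lt hsi))
    revert hsi
    refine Fin.cases ?_ (fun s => ?_) s
    · intro _
      rw [hom_rowOp_zero a i f hc, hd i, map_zero]
    · intro hsi
      rw [hom_rowOp, hf.2 s i (Fin.succ_lt_succ_iff.1 hsi), map_zero]

end Vale.Agent.P181.SZR2a
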