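import Vale.Agent.P181.SZR2a.RowOp

set_option autoImplicit false

/-!
# P181, SZ, R2a: `HomS`
-/

open MvPolynomial

namespace Vale.Agent.P181.SZR2a

open Vale.Agent.P181.T4 (HW rowOp ColHom colW weight_colW)
open Vale.Agent.P181.SZR2 (pos Zh dex FF FF_apply HomS)
open Vale.Agent.P181.SZ (PK)

variable {m b l : ℕ}

/-- Weighted homogeneity passes through substitutions. -/
lemma isWeightedHomogeneous_aeval {σ τ : Type} [Fintype σ] {u : σ → ℕ} {w : τ → ℕ} {N : ℕ}
    (φ : σ → MvPolynomial τ ℂ) (hφ : ∀ p, IsWeightedHomogeneous w (φ p) (u p))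
    {g : MvPolynomial σ ℂ} (hg : ∀ v, coeff v g ≠ 0 → ∑ p, v p * u p = N) :
    IsWeightedHomogeneous w (aeval φ g) N := by
  classical
  rw [g.as_sum, map_sum, ← mem_weightedHomogeneousSubmodule]
  refine Submodule.sum_mem _ fun v hv => ?_
  rw [mem_weightedHomogeneousSubmodule, aeval_monomial,
    Finsupp.prod_fintype _ _ (fun _ => pow_zero _), ← hg v (mem_support_iff.1 hv), ← zero_add
    (∑ p, v p * u p)]
  refine IsWeightedHomogeneous.mul (isWeightedHomogeneous_C w _) ?_
  refine IsWeightedHomogeneous.prod _ _ _ fun p _ => ?_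
  have h := (hφ p).pow (v p)
  rwa [smul_eq_mul] at h

lemma isWH_X {σ : Type} (w : σ → ℕ) (p : σ) {N : ℕ} (h : w p = N) :
    IsWeightedHomogeneous w (X p : MvPolynomial σ ℂ) N := by
  rw [← h]
  exact isWeightedHomogeneous_X ℂ w p

/-- `Zh` is homogeneous for every weight which is additive in the two coordinates. -/
lemma isWH_Zh (w : Fin (m + 1) × Fin b → ℕ) (h : 3 * l ≤ b) (p : Fin m × Fin l) {N : ℕ}
    (h0 : w (p.1.succ, pos h p.2 0) + w (0, pos h p.2 1) + w (0, pos h p.2 2) = N)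
    (h1 : w (0, pos h p.2 0) + w (p.1.succ, pos h p.2 1) + w (0, pos h p.2 2) = N)
    (h2 : w (0, pos h p.2 0) + w (0, pos h p.2 1) + w (p.1.succ, pos h p.2 2) = N) :
    IsWeightedHomogeneous w (Zh m h p) N := by
  have e0 : IsWeightedHomogeneous w (X (p.1.succ, pos h p.2 0) * X (0, pos h p.2 1) *
      X (0, pos h p.2 2) : MvPolynomial (Fin (m + 1) × Fin b) ℂ) N := by
    rw [← h0]
    exact ((isWH_X w _ rfl).mul (isWH_X w _ rfl)).mul (isWH_X w _ rfl)
  have e1 : IsWeightedHomogeneous w (X (0, pos h p.2 0) * X (p.1.succ, pos h p.2 1) *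
      X (0, pos h p.2 2) : MvPolynomial (Fin (m + 1) × Fin b) ℂ) N := by
    rw [← h1]
    exact ((isWH_X w _ rfl).mul (isWH_X w _ rfl)).mul (isWH_X w _ rfl)
  have e2 : IsWeightedHomogeneous w (C 2 * (X (0, pos h p.2 0) * X (0, pos h p.2 1) *
      X (p.1.succ, pos h p.2 2)) : MvPolynomial (Fin (m + 1) × Fin b) ℂ) N := by
    rw [← h2, ← zero_add (w (0, pos h p.2 0) + w (0, pos h p.2 1) + w (p.1.succ, pos h p.2 2))]
    exact (isWeightedHomogeneous_C w _).mul
      (((isWH_X w _ rfl).mul (isWH_X w _ rfl)).mul (isWH_X w _ rfl))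
  rw [Zh, ← mem_weightedHomogeneousSubmodule]
  exact Submodule.sub_mem _ (Submodule.add_mem _ e0 e1) e2

lemma pos_div (h : 3 * l ≤ b) (j : Fin l) (t : Fin 3) : ((pos h j t : Fin b) : ℕ) / 3 = j := by
  have h1 : ((pos h j t : Fin b) : ℕ) = 3 * (j : ℕ) + t := rfl
  have := t.2
  omega

/-- The degree of `Zh` in the column `c`. -/
lemma colW_Zh (h : 3 * l ≤ b) (p : Fin m × Fin l) (c : Fin b) :
    IsWeightedHomogeneous (colW c) (Zh m h p) (if (c : ℕ) / 3 = (p.2 : ℕ) then 1 else 0) := by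
  have hne : ∀ s t : Fin 3, s ≠ t → pos h p.2 s ≠ pos h p.2 t := by
    intro s t hst he
    have h1 : 3 * (p.2 : ℕ) + s = 3 * (p.2 : ℕ) + t := congrArg Fin.val he
    exact hst (Fin.ext (by omega))
  have key : ∀ i0 i1 i2 : Fin (m + 1), colW c (i0, pos h p.2 0) + colW c (i1, pos h p.2 1) +
      colW c (i2, pos h p.2 2) = if (c : ℕ) / 3 = (p.2 : ℕ) then 1 else 0 := by
    intro i0 i1 i2
    simp only [colW]
    by_cases hc : (c : ℕ) / 3 = (p.2 : ℕ)
    · rw [if_pos hc]
      have h3 : (c : ℕ) = 3 * (p.2 : ℕ) + (c : ℕ) % 3 := by omega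
      have hlt : (c : ℕ) % 3 < 3 := Nat.mod_lt _ (by norm_num)
      have hcp : c = pos h p.2 ⟨(c : ℕ) % 3, hlt⟩ := Fin.ext h3
      have hdec : ∀ r : Fin 3, ((if (0 : Fin 3) = r then 1 else 0) +
          (if (1 : Fin 3) = r then 1 else 0) + (if (2 : Fin 3) = r then 1 else 0)) = 1 := by
        decide
      have hiff : ∀ s t : Fin 3, pos h p.2 s = pos h p.2 t ↔ s = t := fun s t =>
        ⟨fun e => by by_contra hst; exact hne s t hst e, fun e => by rw [e]⟩
      rw [hcp]
      simp only [hiff]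
      exact hdec _
    · rw [if_neg hc]
      have hn : ∀ t : Fin 3, pos h p.2 t ≠ c := by
        intro t he
        apply hc
        rw [← he, pos_div]
      rw [if_neg (hn 0), if_neg (hn 1), if_neg (hn 2)]
  exact isWH_Zh _ h p (key _ _ _) (key _ _ _) (key _ _ _)

lemma isWH_prod_X_zero (w : Fin (m + 1) × Fin b → ℕ) (e : Fin b → ℕ) :
    IsWeightedHomogeneous w (∏ c : Fin b, X (0, c) ^ e c : MvPolynomial (Fin (m + 1) × Fin b) ℂ)
      (∑ c, e c * w (0, c)) := by
  refine IsWeightedHomogeneous.prod _ _ _ fun c _ => ?_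
  have h := (isWeightedHomogeneous_X ℂ w (0, c)).pow (e c)
  rwa [smul_eq_mul] at h

/-- **(R2a)**, the column degrees. -/
theorem colHom_FF {a : ℕ} (h : 3 * l ≤ b) {d : Fin l → ℕ} (hd : ∀ j, d j ≤ a)
    {g : MvPolynomial (Fin m × Fin l) ℂ} (hg : ∀ v, coeff v g ≠ 0 → ∀ j, ∑ i, v (i, j) = d j) :
    ColHom a (FF a m h d g) := by
  classical
  intro c
  have h1 : IsWeightedHomogeneous (colW c) (aeval (Zh m h) g) (dex d c) := by
    refine isWeightedHomogeneous_aeval (u := fun p => if (c : ℕ) / 3 = (p.2 : ℕ) then 1 else 0)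
      _ (fun p => colW_Zh h p c) fun v hv => ?_
    rw [Fintype.sum_prod_type_right]
    have h2 : ∀ j : Fin l, ∑ i : Fin m, v (i, j) * (if (c : ℕ) / 3 = (j : ℕ) then 1 else 0) =
        if (c : ℕ) / 3 = (j : ℕ) then d j else 0 := by
      intro j
      by_cases hj : (c : ℕ) / 3 = (j : ℕ)
      · simp only [if_pos hj, mul_one]
        exact hg v hv j
      · simp only [if_neg hj, mul_zero, Finset.sum_const_zero]
    rw [Finset.sum_congr rfl fun j _ => h2 j, dex]
    by_cases hl : (c : ℕ) / 3 < l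
    · rw [dif_pos hl, Finset.sum_eq_single (⟨(c : ℕ) / 3, hl⟩ : Fin l)]
      · rw [if_pos rfl]
      · intro j _ hj
        rw [if_neg]
        intro he
        exact hj (Fin.ext he.symm)
      · intro he
        exact absurd (Finset.mem_univ _) he
    · rw [dif_neg hl]
      refine Finset.sum_eq_zero fun j _ => ?_
      rw [if_neg]
      intro he
      exact hl (he ▸ j.2)
  have h2 := isWH_prod_X_zero (m := m) (colW c) (fun c' : Fin b => a - dex d c')
  have h3 : ∑ c' : Fin b, (a - dex d c') * (colW c ((0 : Fin (m + 1)), c')) = a - dex d c := by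
    rw [Finset.sum_eq_single c]
    · simp [colW]
    · intro c' _ hc'
      simp [colW, hc']
    · intro he
      exact absurd (Finset.mem_univ _) he
  rw [h3] at h2
  have h4 : a - dex d c + dex d c = a := by
    have : dex d c ≤ a := by
      rw [dex]
      by_cases hl : (c : ℕ) / 3 < l
      · rw [dif_pos hl]
        exact hd _
      · rw [dif_neg hl]
        exact Nat.zero_le _
    omega
  rw [FF_apply, ← h4]
  rw [h4]
  have h5 := h2.mul h1
  rwa [h4] at h5

/-- The weight counting the variables of the row `i`. -/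
def rW (m b : ℕ) (i : Fin (m + 1)) : Fin (m + 1) × Fin b → ℕ := fun p => if p.1 = i then 1 else 0

lemma weight_rW (i : Fin (m + 1)) (v : Fin (m + 1) × Fin b →₀ ℕ) :
    Finsupp.weight (rW m b i) v = ∑ c, v (i, c) := by
  classical
  rw [Finsupp.weight_apply, Finsupp.sum_fintype _ _ (fun _ => by simp), Fintype.sum_prod_type,
    Finset.sum_eq_single i]
  · simp [rW]
  · intro k _ hk
    simp [rW, hk]
  · intro h
    exact absurd (Finset.mem_univ _) h

/-- **(R2a)**, the row degrees. -/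
theorem row_FF {a : ℕ} (h : 3 * l ≤ b) {d : Fin l → ℕ} {mu : Fin m → ℕ}
    {g : MvPolynomial (Fin m × Fin l) ℂ} (hg : ∀ v, coeff v g ≠ 0 → ∀ i, ∑ j, v (i, j) = mu i)
    (i : Fin m) (v : Fin (m + 1) × Fin b →₀ ℕ) (hv : coeff v (FF a m h d g) ≠ 0) :
    ∑ c, v (i.succ, c) = mu i := by
  classical
  have h0 : ∀ c : Fin b, rW m b i.succ (0, c) = 0 := by
    intro c
    rw [rW, if_neg (Fin.succ_ne_zero i).symm]
  have h1 : ∀ (k : Fin m) (c : Fin b), rW m b i.succ (k.succ, c) = if k = i then 1 else 0 := by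
    intro k c
    simp only [rW, Fin.succ_inj]
  have h2 : IsWeightedHomogeneous (rW m b i.succ) (aeval (Zh m h) g) (mu i) := by
    refine isWeightedHomogeneous_aeval (u := fun p => if p.1 = i then 1 else 0) _
      (fun p => isWH_Zh _ h p ?_ ?_ ?_) fun v hv => ?_
    · rw [h0, h0, h1, add_zero, add_zero]
    · rw [h0, h0, h1, zero_add, add_zero]
    · rw [h0, h0, h1, zero_add, zero_add]
    · rw [Fintype.sum_prod_type, Finset.sum_eq_single i, ← hg v hv i]
      · refine Finset.sum_congr rfl fun j _ => ?_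
        rw [if_pos rfl, mul_one]
      · intro k _ hk
        refine Finset.sum_eq_zero fun j _ => ?_
        rw [if_neg hk, mul_zero]
      · intro he
        exact absurd (Finset.mem_univ _) he
  have h3 := isWH_prod_X_zero (m := m) (rW m b i.succ) (fun c' : Fin b => a - dex d c')
  have h4 : ∑ c' : Fin b, (a - dex d c') * (rW m b i.succ (0, c')) = 0 := by
    refine Finset.sum_eq_zero fun c' _ => ?_
    rw [h0, mul_zero]
  rw [h4] at h3
  have h5 := (h3.mul h2) hv
  rw [weight_rW, zero_add] at h5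
  exact h5

/-- **(R2a)** homogenization. -/
theorem homS : HomS := by
  intro a b m l h d mu lam hd hlam hsum g hg
  obtain ⟨hHW, hcol, _⟩ := hg
  have hC : ColHom a (FF a m h d g) := colHom_FF h hd hcol
  refine ⟨⟨fun v hv i => ?_, fun s i hsi => rowOp_FF a h d hHW s i hsi⟩, hC⟩
  have hrow : ∀ i : Fin m, ∑ c, v (i.succ, c) = lam i.succ := by
    intro i
    rw [hlam i]
    exact row_FF h hHW.1 i v hv
  refine Fin.cases ?_ (fun i => hrow i) i
  have h1 : ∀ c, ∑ i, v (i, c) = a := by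
    intro c
    rw [← weight_colW]
    exact hC c hv
  have h2 : ∑ c : Fin b, ∑ i, v (i, c) = a * b := by
    rw [Finset.sum_congr rfl fun c _ => h1 c, Finset.sum_const, Finset.card_univ,
      Fintype.card_fin, smul_eq_mul, mul_comm]
  rw [Finset.sum_comm, Fin.sum_univ_succ, Finset.sum_congr rfl fun i _ => hrow i] at h2
  rw [Fin.sum_univ_succ] at hsum
  omega

end Vale.Agent.P181.SZR2a
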