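import Vale.Agent.P181.SZR2a.HomS
import Vale.Agent.P181.SZR2.Final

set_option autoImplicit false

/-!
# P181, SZ, R2: `LowerS`
-/

namespace Vale.Agent.P181.SZR2a

open Vale.Agent.P181.SZ

/-- **(R2)** -/
theorem lowerS : LowerS := Vale.Agent.P181.SZR2.lower_of_hom homS

end Vale.Agent.P181.SZR2a
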