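import Vale.Agent.P181.SZR2a.Hom
import Vale.Agent.P181.H411.Seam4
import Vale.Agent.P181.SZ.Defs

set_option autoImplicit false

/-!
# P181, SZ, R2a: the lower bound by translation invariant polynomials
-/

open MvPolynomial

namespace Vale.Agent.P181.SZR2a

open Vale.Agent.P181.T4 (HW rowOp rowOp_apply ColHom symP symP_apply plethMult_ge_poly weight_colW)
open Vale.Agent.P181.H280 (plethMult)
open Vale.Agent.P181.SZ (tl)

variable {m b : ℕ}

lemma hom_colHom {a : ℕ} {f : MvPolynomial (Fin m × Fin b) ℂ}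
    (hf : ∀ v, coeff v f ≠ 0 → ∀ j, cd v j ≤ a) : ColHom a (hom a f) := by
  intro j w hw
  rw [weight_colW]
  exact cd_hom hf w hw j

lemma symP_hom {a : ℕ} {f : MvPolynomial (Fin m × Fin b) ℂ}
    (hf : ∀ e : Equiv.Perm (Fin b), rename (fun p : Fin m × Fin b => (p.1, e p.2)) f = f) :
    symP b (m + 1) (hom a f) = (Fintype.card (Equiv.Perm (Fin b)) : ℂ) • hom a f := by
  rw [symP_apply, Finset.sum_congr rfl (fun e _ => ?_), Finset.sum_const, Finset.card_univ,
    Nat.cast_smul_eq_nsmul]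
  rw [← hom_rename, hf]

lemma linInd_symP_hom {a : ℕ} {ι : Type} (v : ι → MvPolynomial (Fin m × Fin b) ℂ)
    (hv : LinearIndependent ℂ v)
    (hsym : ∀ i, ∀ e : Equiv.Perm (Fin b),
      rename (fun p : Fin m × Fin b => (p.1, e p.2)) (v i) = v i) :
    LinearIndependent ℂ (fun i => symP b (m + 1) (hom a (v i))) := by
  have hcard : (Fintype.card (Equiv.Perm (Fin b)) : ℂ) ≠ 0 := by
    exact_mod_cast Fintype.card_ne_zero
  have h1 : LinearIndependent ℂ (fun i => hom a (v i)) :=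
    hv.map' (hom a) (LinearMap.ker_eq_bot.2 (hom_injective a))
  have h2 : (fun i => symP b (m + 1) (hom a (v i))) =
      fun i => (Fintype.card (Equiv.Perm (Fin b)) : ℂ) • hom a (v i) :=
    funext fun i => symP_hom (hsym i)
  rw [h2]
  exact h1.units_smul (fun _ => Units.mk0 _ hcard)

/-- **(R2a)** Translation invariant symmetric highest weight polynomials in `b` points, of degree
at most `a` in each point, give a lower bound for the multiplicity. -/
theorem card_le_plethMult {a : ℕ} {lam : Fin (m + 1) → ℕ} (h : ∑ i, lam i = a * b)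
    {ι : Type} [Fintype ι] (v : ι → MvPolynomial (Fin m × Fin b) ℂ)
    (hv : LinearIndependent ℂ v)
    (hS : ∀ i, v i ∈ HW m (Fin b) (fun i => lam i.succ))
    (hsym : ∀ i, ∀ e : Equiv.Perm (Fin b),
      rename (fun p : Fin m × Fin b => (p.1, e p.2)) (v i) = v i)
    (hc : ∀ k, ∀ w, coeff w (v k) ≠ 0 → ∀ j, cd w j ≤ a)
    (hd : ∀ k, ∀ i, ∑ j, pderiv (i, j) (v k) = 0) :
    Fintype.card ι ≤ plethMult b a (m + 1) lam :=
  plethMult_ge_poly (b := b) (a := a) (m := m + 1) (lam := lam) (fun i => hom a (v i))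
    (fun i => hom_mem_HW h (hS i) (hc i) (hd i)) (fun i => hom_colHom (hc i))
    (linInd_symP_hom v hv hsym)

lemma exists_basis (S : Submodule ℂ (MvPolynomial (Fin m × Fin b) ℂ)) (hS : Module.Finite ℂ S) :
    ∃ v : Fin (Module.finrank ℂ S) → MvPolynomial (Fin m × Fin b) ℂ,
      LinearIndependent ℂ v ∧ ∀ i, v i ∈ S := by
  refine ⟨fun i => (Module.finBasis ℂ S i : MvPolynomial (Fin m × Fin b) ℂ), ?_,
    fun i => (Module.finBasis ℂ S i).2⟩
  exact (Module.finBasis ℂ S).linearIndependent.map' S.subtype (Submodule.ker_subtype S)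

/-- **(R2a)**, submodule form. -/
theorem finrank_le_plethMult {a : ℕ} {lam : Fin (m + 1) → ℕ} (h : ∑ i, lam i = a * b)
    (S : Submodule ℂ (MvPolynomial (Fin m × Fin b) ℂ))
    (hS : S ≤ HW m (Fin b) (tl lam))
    (hsym : ∀ f ∈ S, ∀ e : Equiv.Perm (Fin b),
      rename (fun p : Fin m × Fin b => (p.1, e p.2)) f = f)
    (hc : ∀ f ∈ S, ∀ v, coeff v f ≠ 0 → ∀ j, ∑ i, v (i, j) ≤ a)
    (hd : ∀ f ∈ S, ∀ i, ∑ j, pderiv (i, j) f = 0) :
    Module.finrank ℂ S ≤ plethMult b a (m + 1) lam := by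
  have hfin : Module.Finite ℂ S := Submodule.finiteDimensional_of_le hS
  obtain ⟨v, hv, hvS⟩ := exists_basis S hfin
  have h2 := card_le_plethMult h v hv (fun i => hS (hvS i)) (fun i => hsym _ (hvS i))
    (fun i => hc _ (hvS i)) (fun i => hd _ (hvS i))
  rwa [Fintype.card_fin] at h2

end Vale.Agent.P181.SZR2a
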